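import Vale.Agent.Lib.P126.Defs

/-! # P126 unit U1: basic facts on covering numbers -/

namespace P126
open P248
open scoped Pointwise
variable {ι κ : Type*} [Fintype ι] [Fintype κ]

/-- `Nat.sInf_le`. -/
theorem covN_le {T : Finset (ι → ℝ)} {A B : Set (ι → ℝ)} (h : Covers T A B) : covN A B ≤ T.card := by
  unfold covN
  exact Nat.sInf_le ⟨T, rfl, h⟩

/-- `Nat.sInf_mem`. -/
theorem exists_covers {A B : Set (ι → ℝ)} (h : ∃ T : Finset (ι → ℝ), Covers T A B) :
    ∃ T : Finset (ι → ℝ), T.card = covN A B ∧ Covers T A B := by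
  obtain ⟨T, hT⟩ := h
  have hne : {k | ∃ T : Finset (ι → ℝ), T.card = k ∧ Covers T A B}.Nonempty := ⟨T.card, T, rfl, hT⟩
  exact Nat.sInf_mem hne

/-- an optimal cover of a nonempty set is nonempty. -/
theorem covN_pos {A B : Set (ι → ℝ)} (hA : A.Nonempty) (h : ∃ T : Finset (ι → ℝ), Covers T A B) :
    0 < covN A B := by
  obtain ⟨T, hc, hT⟩ := exists_covers h
  obtain ⟨x, hx⟩ := hA
  obtain ⟨c, hcT, _⟩ := hT x hx
  rw [← hc]
  exact Finset.card_pos.2 ⟨c, hcT⟩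

/-- an optimal cover of `A'` by `B'` covers `A` by `B`. -/
theorem covN_mono {A A' B B' : Set (ι → ℝ)} (hA : A ⊆ A') (hB : B' ⊆ B)
    (h : ∃ T : Finset (ι → ℝ), Covers T A' B') : covN A B ≤ covN A' B' := by
  obtain ⟨T, hc, hT⟩ := exists_covers h
  rw [← hc]
  apply covN_le
  intro x hx
  obtain ⟨c, hcT, hxc⟩ := hT x (hA hx)
  exact ⟨c, hcT, hB hxc⟩

end P126
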