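import Vale.Agent.Lib.P126.Defs

/-! # P126 unit U3: finite covers exist -/

namespace P126
open P248
open scoped Pointwise
variable {ι κ : Type*} [Fintype ι] [Fintype κ]

/-- Pick `p ∈ interior B`.  The open sets `U x = {z | z - (x - p) ∈ interior B}`, `x ∈ A`, cover `A` (`x ∈ U x`);
take a finite subcover (`IsCompact.elim_finite_subcover` or `elim_nhds_subcover`), centres `x - p`. -/
theorem exists_covers_of_compact {A B : Set (ι → ℝ)} (hA : IsCompact A) (hB : (interior B).Nonempty) :
    ∃ T : Finset (ι → ℝ), Covers T A B := by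
  classical
  obtain ⟨p, hp⟩ := hB
  have hU : ∀ x ∈ A, {z : ι → ℝ | z - (x - p) ∈ interior B} ∈ nhds x := by
    intro x _
    have hopen : IsOpen {z : ι → ℝ | z - (x - p) ∈ interior B} :=
      isOpen_interior.preimage (continuous_id.sub continuous_const)
    exact hopen.mem_nhds (by simpa using hp)
  obtain ⟨t, htA, hcov⟩ :=
    hA.elim_nhds_subcover (fun x => {z : ι → ℝ | z - (x - p) ∈ interior B}) hU
  refine ⟨t.image (fun x => x - p), ?_⟩
  intro z hz
  obtain ⟨x, hx, hzx⟩ := Set.mem_iUnion₂.1 (hcov hz)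
  exact ⟨x - p, Finset.mem_image_of_mem _ hx, interior_subset hzx⟩

theorem cov_ex {A B : Set (ι → ℝ)} (hA : SymBody A) (hB : SymBody B) :
    ∃ T : Finset (ι → ℝ), Covers T A B :=
  exists_covers_of_compact hA.1 hB.2.2.1

end P126
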