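import Vale.Agent.Lib.P126.CovBasic

/-! # P126 units U5, U6: separated sets -/

namespace P126
open P248
open scoped Pointwise
variable {ι κ : Type*} [Fintype ι] [Fintype κ]

/-- U5.  Choose `f x ∈ T` with `x - f x ∈ B`; `f` is injective on `S`: if `f x = f y = c` then
`x - y = 2 • ((1/2) • (x - c) + (1/2) • (-(y - c))) ∈ 2 • B`.  `Finset.card_le_card_of_injOn`. -/
theorem sep_card_le {A B : Set (ι → ℝ)} (hc : Convex ℝ B) (hs : ∀ x ∈ B, -x ∈ B)
    {S T : Finset (ι → ℝ)} (hSA : ∀ x ∈ S, x ∈ A)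
    (hsep : ∀ x ∈ S, ∀ y ∈ S, x ≠ y → x - y ∉ (2 : ℝ) • B) (hT : Covers T A B) :
    S.card ≤ T.card := by
  classical
  choose! f hf using fun x (hx : x ∈ A) => hT x hx
  apply Finset.card_le_card_of_injOn f
  · intro x hx
    exact (hf x (hSA x hx)).1
  · intro x hx y hy hxy
    by_contra hne
    apply hsep x hx y hy hne
    have h1 := (hf x (hSA x hx)).2
    have h2 := hs _ (hf y (hSA y hy)).2
    refine ⟨(1 / 2 : ℝ) • (x - f x) + (1 / 2 : ℝ) • (-(y - f y)),
      hc h1 h2 (by norm_num) (by norm_num) (by norm_num), ?_⟩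
    rw [hxy]
    funext i
    simp only [Pi.smul_apply, Pi.add_apply, Pi.sub_apply, Pi.neg_apply, smul_eq_mul]
    ring

/-- U6.  A separated subset of `A` of maximal cardinality (bounded by `sep_card_le`; e.g. `Nat.findGreatest` or
strong induction on `T.card - S.card`) is a `2 • B`-net: for `x ∈ A`, `x ∉ S`, `insert x S` is not separated, so
`x - y ∈ 2 • B` or `y - x ∈ 2 • B` for some `y ∈ S` (symmetry); for `x ∈ S` use `0 ∈ 2 • B` (`B` is nonempty because
`x` is covered, and symmetric convex). -/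
theorem exists_sep {A B : Set (ι → ℝ)} (hc : Convex ℝ B) (hs : ∀ x ∈ B, -x ∈ B)
    (h : ∃ T : Finset (ι → ℝ), Covers T A B) :
    ∃ S : Finset (ι → ℝ), (∀ x ∈ S, x ∈ A) ∧
      (∀ x ∈ S, ∀ y ∈ S, x ≠ y → x - y ∉ (2 : ℝ) • B) ∧ Covers S A ((2 : ℝ) • B) := by
  classical
  obtain ⟨T, hT⟩ := h
  let P : ℕ → Prop := fun k => ∃ S : Finset (ι → ℝ), S.card = k ∧ (∀ x ∈ S, x ∈ A) ∧
    (∀ x ∈ S, ∀ y ∈ S, x ≠ y → x - y ∉ (2 : ℝ) • B)
  have hP0 : P 0 := ⟨∅, rfl, by simp, by simp⟩
  have hspec : P (Nat.findGreatest P T.card) := Nat.findGreatest_spec (Nat.zero_le _) hP0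
  obtain ⟨S, hcard, hSA, hsep⟩ := hspec
  have hsym : ∀ w ∈ (2 : ℝ) • B, -w ∈ (2 : ℝ) • B := by
    rintro _ ⟨b, hb, rfl⟩
    exact ⟨-b, hs b hb, by simp⟩
  refine ⟨S, hSA, hsep, ?_⟩
  intro x hx
  by_cases hxS : x ∈ S
  · refine ⟨x, hxS, ?_⟩
    obtain ⟨c, _, hb⟩ := hT x hx
    have h0 : (0 : ι → ℝ) ∈ B := by
      have := hc hb (hs _ hb) (by norm_num : (0 : ℝ) ≤ 1 / 2) (by norm_num : (0 : ℝ) ≤ 1 / 2)
        (by norm_num)
      rwa [smul_neg, add_neg_cancel] at this
    exact ⟨0, h0, by simp⟩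
  · by_contra hno
    have hno' : ∀ y ∈ S, x - y ∉ (2 : ℝ) • B := fun y hy hxy => hno ⟨y, hy, hxy⟩
    have hP1 : P (S.card + 1) := by
      refine ⟨insert x S, Finset.card_insert_of_notMem hxS, ?_, ?_⟩
      · intro y hy
        rcases Finset.mem_insert.1 hy with rfl | hy
        · exact hx
        · exact hSA y hy
      · intro u hu v hv huv
        rcases Finset.mem_insert.1 hu with hu1 | hu1
        · rcases Finset.mem_insert.1 hv with hv1 | hv1
          · exact absurd (hu1.trans hv1.symm) huv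
          · rw [hu1]
            exact hno' v hv1
        · rcases Finset.mem_insert.1 hv with hv1 | hv1
          · intro hmem
            have := hsym _ hmem
            rw [neg_sub, hv1] at this
            exact hno' u hu1 this
          · exact hsep u hu1 v hv1 huv
    obtain ⟨S', hc', hSA', hsep'⟩ := hP1
    have hle : S.card + 1 ≤ T.card := by
      rw [← hc']
      exact sep_card_le hc hs hSA' hsep' hT
    have hgt : Nat.findGreatest P T.card < S.card + 1 := by rw [hcard]; exact Nat.lt_succ_self _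
    exact Nat.findGreatest_is_greatest hgt hle ⟨S', hc', hSA', hsep'⟩

end P126
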