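import Vale.Agent.Lib.P126.CovProdLe
import Vale.Agent.Lib.P126.Sep

/-! # P126 unit U7: covering numbers of products, lower bound -/

namespace P126
open P248
open scoped Pointwise
variable {ι κ : Type*} [Fintype ι] [Fintype κ]

/-- U7.  `S, S'` from `exists_sep`; `covN A (2 • B) ≤ S.card`, `covN A' (2 • B') ≤ S'.card` (`covN_le`).
`P = (S ×ˢ S').image (fun p => Sum.elim p.1 p.2)` has `S.card * S'.card` elements (injective), lies in `prodG A A'` and
is separated for `2 • prodG B B'` (if `z ∈ 2 • prodG B B'` then `z ∘ inl ∈ 2 • B` and `z ∘ inr ∈ 2 • B'`).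
`prodG B B'` is convex and symmetric.  An optimal cover of the product exists (`covers_prod`, `exists_covers`);
conclude by `sep_card_le`. -/
theorem covN_prod_ge {A B : Set (ι → ℝ)} {A' B' : Set (κ → ℝ)}
    (hc : Convex ℝ B) (hs : ∀ x ∈ B, -x ∈ B) (hc' : Convex ℝ B') (hs' : ∀ x ∈ B', -x ∈ B')
    (h : ∃ T : Finset (ι → ℝ), Covers T A B) (h' : ∃ T : Finset (κ → ℝ), Covers T A' B') :
    covN A ((2 : ℝ) • B) * covN A' ((2 : ℝ) • B') ≤ covN (prodG A A') (prodG B B') := by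
  classical
  obtain ⟨S, hSA, hSsep, hScov⟩ := exists_sep hc hs h
  obtain ⟨S', hSA', hSsep', hScov'⟩ := exists_sep hc' hs' h'
  have h1 : covN A ((2 : ℝ) • B) ≤ S.card := covN_le hScov
  have h2 : covN A' ((2 : ℝ) • B') ≤ S'.card := covN_le hScov'
  obtain ⟨T, hT⟩ := h
  obtain ⟨T', hT'⟩ := h'
  obtain ⟨P0, _, hP0⟩ := covers_prod hT hT'
  obtain ⟨Q, hQc, hQ⟩ := exists_covers ⟨P0, hP0⟩
  set f : (ι → ℝ) × (κ → ℝ) → (ι ⊕ κ → ℝ) := fun p => Sum.elim p.1 p.2 with hf
  have hinj : Function.Injective f := by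
    intro p q hpq
    have e1 : p.1 = q.1 := by
      ext i; simpa [hf] using congrFun hpq (Sum.inl i)
    have e2 : p.2 = q.2 := by
      ext j; simpa [hf] using congrFun hpq (Sum.inr j)
    exact Prod.ext e1 e2
  set P : Finset (ι ⊕ κ → ℝ) := (S ×ˢ S').image f with hP
  have hPcard : P.card = S.card * S'.card := by
    rw [hP, Finset.card_image_of_injective _ hinj, Finset.card_product]
  have hconv : Convex ℝ (prodG B B') := by
    intro x hx y hy a b ha hb hab
    exact ⟨hc hx.1 hy.1 ha hb hab, hc' hx.2 hy.2 ha hb hab⟩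
  have hsym : ∀ x ∈ prodG B B', -x ∈ prodG B B' := by
    intro x hx
    exact ⟨hs _ hx.1, hs' _ hx.2⟩
  have hPA : ∀ x ∈ P, x ∈ prodG A A' := by
    intro x hx
    obtain ⟨p, hp, rfl⟩ := Finset.mem_image.1 hx
    obtain ⟨hp1, hp2⟩ := Finset.mem_product.1 hp
    exact ⟨by simpa [hf] using hSA _ hp1, by simpa [hf] using hSA' _ hp2⟩
  have hPsep : ∀ x ∈ P, ∀ y ∈ P, x ≠ y → x - y ∉ (2 : ℝ) • prodG B B' := by
    intro x hx y hy hxy hmem
    obtain ⟨p, hp, rfl⟩ := Finset.mem_image.1 hx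
    obtain ⟨q, hq, rfl⟩ := Finset.mem_image.1 hy
    obtain ⟨hp1, hp2⟩ := Finset.mem_product.1 hp
    obtain ⟨hq1, hq2⟩ := Finset.mem_product.1 hq
    obtain ⟨w, hw, hwe⟩ := hmem
    have m1 : p.1 - q.1 ∈ (2 : ℝ) • B := by
      refine ⟨_, hw.1, ?_⟩
      ext i
      simpa [hf] using congrFun hwe (Sum.inl i)
    have m2 : p.2 - q.2 ∈ (2 : ℝ) • B' := by
      refine ⟨_, hw.2, ?_⟩
      ext j
      simpa [hf] using congrFun hwe (Sum.inr j)
    have e1 : p.1 = q.1 := by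
      by_contra hne
      exact hSsep _ hp1 _ hq1 hne m1
    have e2 : p.2 = q.2 := by
      by_contra hne
      exact hSsep' _ hp2 _ hq2 hne m2
    exact hxy (congrArg f (Prod.ext e1 e2))
  have h3 : P.card ≤ Q.card := sep_card_le hconv hsym hPA hPsep hQ
  calc covN A ((2 : ℝ) • B) * covN A' ((2 : ℝ) • B') ≤ S.card * S'.card := Nat.mul_le_mul h1 h2
    _ = P.card := hPcard.symm
    _ ≤ Q.card := h3
    _ = covN (prodG A A') (prodG B B') := hQc

end P126
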