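import Vale.Agent.Lib.P126.CovBasic

/-! # P126 unit U4: covering numbers of products, upper bound -/

namespace P126
open P248
open scoped Pointwise
variable {ι κ : Type*} [Fintype ι] [Fintype κ]

/-- centres `Sum.elim c c'`, `(c, c') ∈ T ×ˢ T'` (`Finset.image`, `Finset.card_image_le`, `Finset.card_product`). -/
theorem covers_prod {A B : Set (ι → ℝ)} {A' B' : Set (κ → ℝ)} {T : Finset (ι → ℝ)}
    {T' : Finset (κ → ℝ)} (h : Covers T A B) (h' : Covers T' A' B') :
    ∃ P : Finset (ι ⊕ κ → ℝ), P.card ≤ T.card * T'.card ∧ Covers P (prodG A A') (prodG B B') := by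
  classical
  refine ⟨(T ×ˢ T').image (fun q => Sum.elim q.1 q.2), ?_, ?_⟩
  · rw [← Finset.card_product]
    exact Finset.card_image_le
  · rintro z ⟨hz1, hz2⟩
    obtain ⟨c, hc, hzc⟩ := h _ hz1
    obtain ⟨c', hc', hzc'⟩ := h' _ hz2
    refine ⟨Sum.elim c c', Finset.mem_image.2 ⟨(c, c'), Finset.mem_product.2 ⟨hc, hc'⟩, rfl⟩, ?_, ?_⟩
    · exact hzc
    · exact hzc'

/-- from `covers_prod`, `exists_covers`, `covN_le`. -/
theorem covN_prod_le {A B : Set (ι → ℝ)} {A' B' : Set (κ → ℝ)}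
    (h : ∃ T : Finset (ι → ℝ), Covers T A B) (h' : ∃ T : Finset (κ → ℝ), Covers T A' B') :
    covN (prodG A A') (prodG B B') ≤ covN A B * covN A' B' := by
  obtain ⟨T, hc, hT⟩ := exists_covers h
  obtain ⟨T', hc', hT'⟩ := exists_covers h'
  obtain ⟨P, hP, hcov⟩ := covers_prod hT hT'
  rw [← hc, ← hc']
  exact (covN_le hcov).trans hP

end P126
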