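import Vale.Agent.Lib.P126.Defs
import Vale.Agent.Lib.P248.Reix

/-! # P126 unit U11: relabelling of coordinates -/

namespace P126
open P248
open scoped Pointwise
variable {ι κ : Type*} [Fintype ι] [Fintype κ]

theorem reix_smul (e : ι ≃ κ) (t : ℝ) (A : Set (ι → ℝ)) : reix e (t • A) = t • reix e A := by
  ext z
  constructor
  · rintro ⟨a, ha, hz⟩
    refine ⟨fun k => a (e.symm k), ?_, ?_⟩
    · show (fun i => a (e.symm (e i))) ∈ A
      simpa using ha
    · funext k
      have := congrFun hz (e.symm k)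
      simpa using this
  · rintro ⟨w, hw, rfl⟩
    exact ⟨fun i => w (e i), hw, rfl⟩

theorem covers_reix_aux (e : ι ≃ κ) (A B : Set (ι → ℝ)) {k : ℕ}
    (h : ∃ T : Finset (ι → ℝ), T.card = k ∧ Covers T A B) :
    ∃ T : Finset (κ → ℝ), T.card = k ∧ Covers T (reix e A) (reix e B) := by
  classical
  obtain ⟨T, hT, hc⟩ := h
  refine ⟨T.image (fun x : ι → ℝ => fun k => x (e.symm k)), ?_, ?_⟩
  · rw [Finset.card_image_of_injective _ ?_, hT]
    intro x y hxy
    funext i
    have := congrFun hxy (e i)
    simpa using this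
  · intro z hz
    obtain ⟨c, hcT, hcB⟩ := hc _ hz
    refine ⟨fun k => c (e.symm k), Finset.mem_image_of_mem _ hcT, ?_⟩
    show (fun i => (z - fun k => c (e.symm k)) (e i)) ∈ B
    have : (fun i => (z - fun k => c (e.symm k)) (e i)) = (fun i => z (e i)) - c := by
      funext i
      simp
    rw [this]
    exact hcB

theorem reix_reix_symm (e : ι ≃ κ) (A : Set (ι → ℝ)) : reix e.symm (reix e A) = A := by
  ext x
  show (fun i => (fun k => x (e.symm k)) (e i)) ∈ A ↔ x ∈ A
  simp

theorem covN_reix (e : ι ≃ κ) (A B : Set (ι → ℝ)) : covN (reix e A) (reix e B) = covN A B := by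
  unfold covN
  congr 1
  ext k
  constructor
  · intro h
    have := covers_reix_aux e.symm (reix e A) (reix e B) h
    rwa [reix_reix_symm, reix_reix_symm] at this
  · exact covers_reix_aux e A B

/-- from `covN_reix`, `reix_smul`, `P248.polar_reix`. -/
theorem dual_reix (e : ι ≃ κ) (a b : ℝ) (K L : Set (ι → ℝ)) :
    Dual a b (reix e K) (reix e L) ↔ Dual a b K L := by
  unfold Dual
  rw [polar_reix, polar_reix, ← reix_smul, ← reix_smul, covN_reix, covN_reix, covN_reix]

end P126
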