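import Vale.Agent.Lib.P126.Defs

/-! # P126 unit U2: covering numbers are invariant under dilations -/

namespace P126
open P248
open scoped Pointwise
variable {ι κ : Type*} [Fintype ι] [Fintype κ]

theorem covers_smul_aux (t : ℝ) (ht : t ≠ 0) {A B : Set (ι → ℝ)} {T : Finset (ι → ℝ)}
    (h : Covers T A B) :
    ∃ T' : Finset (ι → ℝ), T'.card = T.card ∧ Covers T' (t • A) (t • B) := by
  classical
  refine ⟨T.image (fun c => t • c), ?_, ?_⟩
  · exact Finset.card_image_of_injective _ (smul_right_injective _ ht)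
  · rintro _ ⟨x, hx, rfl⟩
    obtain ⟨c, hc, hcB⟩ := h x hx
    refine ⟨t • c, Finset.mem_image_of_mem _ hc, x - c, hcB, ?_⟩
    simp [smul_sub]

/-- `Covers T A B ↔ Covers (T.image (t • ·)) (t • A) (t • B)` and the image has the same cardinality; so the two sets
of cardinalities in the definition of `covN` coincide (use `t⁻¹` for the converse inclusion). -/
theorem covN_smul (t : ℝ) (ht : t ≠ 0) (A B : Set (ι → ℝ)) : covN (t • A) (t • B) = covN A B := by
  unfold covN
  congr 1
  ext k
  constructor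
  · rintro ⟨T, hc, hT⟩
    obtain ⟨T', hc', hT'⟩ := covers_smul_aux t⁻¹ (inv_ne_zero ht) hT
    rw [inv_smul_smul₀ ht, inv_smul_smul₀ ht] at hT'
    exact ⟨T', hc'.trans hc, hT'⟩
  · rintro ⟨T, hc, hT⟩
    obtain ⟨T', hc', hT'⟩ := covers_smul_aux t ht hT
    exact ⟨T', hc'.trans hc, hT'⟩

end P126
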