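import Vale.Agent.Lib.P248.Prod

/-! # P126 (duality of metric entropy): definitions.
Bodies live in `ι → ℝ`; `SymBody`, `polar`, `prodG` are those of `P248/Defs.lean`. -/

namespace P126
open P248
open scoped Pointwise

variable {ι κ : Type*} [Fintype ι] [Fintype κ]

/-- The translates `c + B`, `c ∈ T`, cover `A`. -/
def Covers (T : Finset (ι → ℝ)) (A B : Set (ι → ℝ)) : Prop := ∀ x ∈ A, ∃ c ∈ T, x - c ∈ B

/-- The covering number `N(A, B)`: the least number of translates of `B` whose union contains `A`. -/
noncomputable def covN (A B : Set (ι → ℝ)) : ℕ :=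
  sInf {k | ∃ T : Finset (ι → ℝ), T.card = k ∧ Covers T A B}

/-- The two inequalities of the duality conjecture for the pair `(K, L)` with constants `a, b`. -/
def Dual (a b : ℝ) (K L : Set (ι → ℝ)) : Prop :=
  1 / b * Real.log (covN (polar L) (a • polar K)) ≤ Real.log (covN K L) ∧
  Real.log (covN K L) ≤ b * Real.log (covN (polar L) (a⁻¹ • polar K))

end P126
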