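import Vale.Agent.Lib.P126.Defs

/-! # P126 unit U10: the polar of a symmetric convex body is a symmetric convex body -/

namespace P126
open P248
open scoped Pointwise
variable {ι κ : Type*} [Fintype ι] [Fintype κ]

theorem zero_mem_interior13 (K : Set (ι → ℝ)) (hK : SymBody K) : (0 : ι → ℝ) ∈ interior K := by
  obtain ⟨_, hc, ⟨x, hx⟩, hs⟩ := hK
  have hneg : (-1 : ℝ) • K = K := by
    ext y
    rw [Set.mem_smul_set_iff_inv_smul_mem₀ (by norm_num : (-1 : ℝ) ≠ 0)]
    constructor
    · intro hy
      have := hs _ hy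
      simpa using this
    · intro hy
      have := hs _ hy
      simpa using this
  have hx2 : -x ∈ interior K := by
    have : (-1 : ℝ) • x ∈ (-1 : ℝ) • interior K := Set.smul_mem_smul_set hx
    rw [← interior_smul₀ (by norm_num : (-1 : ℝ) ≠ 0), hneg] at this
    simpa using this
  have := hc.interior hx hx2 (by norm_num : (0 : ℝ) ≤ 1 / 2) (by norm_num : (0 : ℝ) ≤ 1 / 2)
    (by norm_num)
  simpa using this

theorem isClosed_polar13 (K : Set (ι → ℝ)) : IsClosed (polar K) := by
  have h : polar K = ⋂ x ∈ K, {y : ι → ℝ | x ⬝ᵥ y ≤ 1} := by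
    ext y; simp [polar]
  rw [h]
  exact isClosed_biInter fun x _ =>
    isClosed_le (continuous_const.dotProduct continuous_id) continuous_const

theorem isBounded_polar13 (K : Set (ι → ℝ)) (hK : SymBody K) : Bornology.IsBounded (polar K) := by
  classical
  have h0 := zero_mem_interior13 K hK
  rw [mem_interior_iff_mem_nhds, Metric.mem_nhds_iff] at h0
  obtain ⟨r, hr, hball⟩ := h0
  rw [isBounded_iff_forall_norm_le]
  refine ⟨2 / r, fun y hy => ?_⟩
  rw [pi_norm_le_iff_of_nonneg (by positivity)]
  intro i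
  have key : ∀ e : ℝ, |e| = 1 → (r / 2) * (e * y i) ≤ 1 := by
    intro e he
    have hm : (Pi.single i ((r / 2) * e) : ι → ℝ) ∈ K := by
      apply hball
      rw [mem_ball_zero_iff, Pi.norm_single, Real.norm_eq_abs, abs_mul, he, mul_one,
        abs_of_pos (by positivity)]
      linarith
    have := hy _ hm
    rw [single_dotProduct] at this
    linarith
  rw [Real.norm_eq_abs, le_div_iff₀ hr]
  rcases abs_cases (y i) with ⟨h, _⟩ | ⟨h, _⟩
  · rw [h]
    have := key 1 (by simp)
    linarith
  · rw [h]
    have := key (-1) (by simp)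
    linarith

theorem interior_polar13 (K : Set (ι → ℝ)) (hK : IsCompact K) : (interior (polar K)).Nonempty := by
  obtain ⟨R, hR⟩ := isBounded_iff_forall_norm_le.mp hK.isBounded
  set R' : ℝ := |R| + 1 with hR'
  have hR'pos : 0 < R' := by positivity
  have hR2 : ∀ x ∈ K, ‖x‖ ≤ R' := fun x hx => (hR x hx).trans (by rw [hR']; linarith [le_abs_self R])
  set δ : ℝ := 1 / (Fintype.card ι * R' + 1) with hδ
  have hδpos : 0 < δ := by positivity
  refine ⟨0, mem_interior.mpr ⟨Metric.ball 0 δ, ?_, Metric.isOpen_ball, Metric.mem_ball_self hδpos⟩⟩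
  intro y hy x hx
  rw [mem_ball_zero_iff] at hy
  have h1 : x ⬝ᵥ y ≤ ∑ _i : ι, R' * δ := by
    unfold dotProduct
    apply Finset.sum_le_sum
    intro i _
    have a1 : |x i| ≤ R' := (norm_le_pi_norm x i).trans (hR2 x hx)
    have a2 : |y i| ≤ δ := (norm_le_pi_norm y i).trans hy.le
    calc x i * y i ≤ |x i * y i| := le_abs_self _
      _ = |x i| * |y i| := abs_mul _ _
      _ ≤ R' * δ := mul_le_mul a1 a2 (abs_nonneg _) hR'pos.le
  refine h1.trans ?_
  rw [Finset.sum_const, Finset.card_univ, nsmul_eq_mul, hδ, ← mul_assoc, mul_one_div,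
    div_le_one (by positivity)]
  linarith

/-- Closed: intersection of closed half-spaces.  Bounded: `0 ∈ interior K` (symmetric convex with nonempty interior),
so `r • Pi.single i (±1) ∈ K` for some `r > 0`, hence `r * |y i| ≤ 1` on the polar.  Interior: `K` is bounded by `R`
in the sup norm, `|⟨x, y⟩| ≤ card ι * R * ‖y‖`, so a ball around `0` lies in the polar.  Convex, symmetric: direct. -/
theorem symBody_polar (K : Set (ι → ℝ)) (hK : SymBody K) : SymBody (polar K) := by
  refine ⟨Metric.isCompact_of_isClosed_isBounded (isClosed_polar13 K) (isBounded_polar13 K hK), ?_,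
    interior_polar13 K hK.1, ?_⟩
  · intro y1 h1 y2 h2 a b ha hb hab x hx
    rw [dotProduct_add, dotProduct_smul, dotProduct_smul, smul_eq_mul, smul_eq_mul]
    have e1 := h1 x hx
    have e2 := h2 x hx
    nlinarith
  · intro y hy x hx
    have := hy (-x) (hK.2.2.2 x hx)
    rwa [dotProduct_neg, ← neg_dotProduct]

end P126
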