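import Vale.Agent.Lib.P126.Defs

/-! # P126 unit U8: polars of products -/

namespace P126
open P248
open scoped Pointwise
variable {ι κ : Type*} [Fintype ι] [Fintype κ]

/-- test `y` against `Sum.elim x 0` and `Sum.elim 0 x'` (`P248.dot_split`). -/
theorem polar_prodG_subset (K : Set (ι → ℝ)) (K' : Set (κ → ℝ)) (h0 : (0 : ι → ℝ) ∈ K)
    (h0' : (0 : κ → ℝ) ∈ K') : polar (prodG K K') ⊆ prodG (polar K) (polar K') := by
  intro y hy
  refine ⟨?_, ?_⟩
  · intro x hx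
    have h := hy (Sum.elim x 0) ⟨by simpa using hx, h0'⟩
    rw [dot_split] at h
    simpa [dotProduct] using h
  · intro x hx
    have h := hy (Sum.elim 0 x) ⟨h0, by simpa using hx⟩
    rw [dot_split] at h
    simpa [dotProduct] using h

/-- `z = 2 • ((1/2) • z)` and `⟨w, z/2⟩ = (⟨w₁, z₁⟩ + ⟨w₂, z₂⟩)/2 ≤ 1` (`P248.dot_split`). -/
theorem prodG_polar_subset (K : Set (ι → ℝ)) (K' : Set (κ → ℝ)) :
    prodG (polar K) (polar K') ⊆ (2 : ℝ) • polar (prodG K K') := by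
  intro z hz
  refine ⟨(1 / 2 : ℝ) • z, ?_, ?_⟩
  · intro w hw
    have h1 := hz.1 _ hw.1
    have h2 := hz.2 _ hw.2
    rw [dotProduct_smul, dot_split, smul_eq_mul]
    linarith
  · simp [smul_smul]

theorem prodG_smul (t : ℝ) (ht : t ≠ 0) (A : Set (ι → ℝ)) (A' : Set (κ → ℝ)) :
    t • prodG A A' = prodG (t • A) (t • A') := by
  ext z
  constructor
  · rintro ⟨w, hw, rfl⟩
    exact ⟨⟨_, hw.1, by ext i; simp⟩, ⟨_, hw.2, by ext i; simp⟩⟩
  · rintro ⟨⟨a, ha, ha'⟩, ⟨b, hb, hb'⟩⟩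
    refine ⟨Sum.elim a b, ⟨by simpa using ha, by simpa using hb⟩, ?_⟩
    ext j
    rcases j with i | j
    · simpa using congrFun ha' i
    · simpa using congrFun hb' j

end P126
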