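import Vale.Agent.Lib.P126.Defs

/-! # P126 unit U9: dilations -/

namespace P126
open P248
open scoped Pointwise
variable {ι κ : Type*} [Fintype ι] [Fintype κ]

theorem zero_mem (K : Set (ι → ℝ)) (hK : SymBody K) : (0 : ι → ℝ) ∈ K := by
  obtain ⟨_, hc, ⟨x, hx⟩, hs⟩ := hK
  have hx' := interior_subset hx
  have := hc hx' (hs x hx') (by norm_num : (0 : ℝ) ≤ 1 / 2) (by norm_num : (0 : ℝ) ≤ 1 / 2)
    (by norm_num)
  simpa using this

theorem polar_smul (t : ℝ) (ht : 0 < t) (K : Set (ι → ℝ)) : polar (t • K) = t⁻¹ • polar K := by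
  ext y
  rw [Set.mem_inv_smul_set_iff₀ ht.ne']
  constructor
  · intro h x hx
    have := h (t • x) (Set.smul_mem_smul_set hx)
    rwa [smul_dotProduct, ← dotProduct_smul] at this
  · rintro h _ ⟨x, hx, rfl⟩
    have := h x hx
    simp only
    rwa [smul_dotProduct, ← dotProduct_smul]

theorem symBody_smul (t : ℝ) (ht : 0 < t) (K : Set (ι → ℝ)) (hK : SymBody K) : SymBody (t • K) := by
  obtain ⟨h1, h2, h3, h4⟩ := hK
  refine ⟨h1.smul t, h2.smul t, ?_, ?_⟩
  · rw [interior_smul₀ ht.ne']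
    exact h3.smul_set
  · rintro _ ⟨x, hx, rfl⟩
    exact ⟨-x, h4 x hx, by simp⟩

end P126
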