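import Vale.Agent.Lib.P126.CovProdGe
import Vale.Agent.Lib.P126.CovSmul
import Vale.Agent.Lib.P126.CovCompact
import Vale.Agent.Lib.P126.PolarProd
import Vale.Agent.Lib.P126.PolarSmul
import Vale.Agent.Lib.P126.PolarBody

/-! # P126: the duality inequalities are inherited by Cartesian products (assembly) -/

namespace P126
open P248
open scoped Pointwise
variable {ι κ : Type*} [Fintype ι] [Fintype κ]

theorem nonempty_of_symBody {K : Set (ι → ℝ)} (hK : SymBody K) : K.Nonempty :=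
  ⟨0, zero_mem K hK⟩

theorem log_mul_cast {p q : ℕ} (hp : 0 < p) (hq : 0 < q) :
    Real.log ((p * q : ℕ) : ℝ) = Real.log p + Real.log q := by
  push_cast
  exact Real.log_mul (by positivity) (by positivity)

theorem log_cast_le {p q : ℕ} (hp : 0 < p) (h : p ≤ q) : Real.log (p : ℝ) ≤ Real.log (q : ℝ) :=
  Real.log_le_log (by exact_mod_cast hp) (by exact_mod_cast h)

/-- left inequality -/
theorem dual_left (a b : ℝ) (ha : 0 < a) (hb : 0 < b)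
    (K₁ L₁ : Set (ι → ℝ)) (K₂ L₂ : Set (κ → ℝ))
    (hK₁ : SymBody K₁) (hL₁ : SymBody L₁) (hK₂ : SymBody K₂) (hL₂ : SymBody L₂)
    (h₁ : 1 / b * Real.log (covN (polar ((2 : ℝ) • L₁)) (a • polar K₁))
      ≤ Real.log (covN K₁ ((2 : ℝ) • L₁)))
    (h₂ : 1 / b * Real.log (covN (polar ((2 : ℝ) • L₂)) (a • polar K₂))
      ≤ Real.log (covN K₂ ((2 : ℝ) • L₂))) :
    1 / b * Real.log (covN (polar (prodG L₁ L₂)) ((4 * a) • polar (prodG K₁ K₂)))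
      ≤ Real.log (covN (prodG K₁ K₂) (prodG L₁ L₂)) := by
  have h2a : (0 : ℝ) < 2 * a := by positivity
  have hpK₁ := symBody_polar K₁ hK₁
  have hpK₂ := symBody_polar K₂ hK₂
  have hpL₁ := symBody_polar L₁ hL₁
  have hpL₂ := symBody_polar L₂ hL₂
  have hK := symBody_prodG K₁ K₂ hK₁ hK₂
  have hL := symBody_prodG L₁ L₂ hL₁ hL₂
  -- step 3
  have e₁ : covN (polar ((2 : ℝ) • L₁)) (a • polar K₁) = covN (polar L₁) ((2 * a) • polar K₁) := by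
    rw [polar_smul 2 (by norm_num), ← covN_smul (2 : ℝ)⁻¹ (by norm_num) (polar L₁), smul_smul]
    congr 2
    field_simp
  have e₂ : covN (polar ((2 : ℝ) • L₂)) (a • polar K₂) = covN (polar L₂) ((2 * a) • polar K₂) := by
    rw [polar_smul 2 (by norm_num), ← covN_smul (2 : ℝ)⁻¹ (by norm_num) (polar L₂), smul_smul]
    congr 2
    field_simp
  rw [e₁] at h₁
  rw [e₂] at h₂
  have c₁ := cov_ex hpL₁ (symBody_smul (2 * a) h2a _ hpK₁)
  have c₂ := cov_ex hpL₂ (symBody_smul (2 * a) h2a _ hpK₂)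
  -- steps 1, 2
  have s1 : covN (polar (prodG L₁ L₂)) ((4 * a) • polar (prodG K₁ K₂))
      ≤ covN (prodG (polar L₁) (polar L₂)) (prodG ((2 * a) • polar K₁) ((2 * a) • polar K₂)) := by
    refine covN_mono (polar_prodG_subset L₁ L₂ (zero_mem _ hL₁) (zero_mem _ hL₂)) ?_ ?_
    · rw [← prodG_smul (2 * a) h2a.ne']
      have : (4 * a) • polar (prodG K₁ K₂) = (2 * a) • ((2 : ℝ) • polar (prodG K₁ K₂)) := by
        rw [smul_smul]; congr 1; ring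
      rw [this]
      exact Set.smul_set_mono (prodG_polar_subset K₁ K₂)
    · obtain ⟨T, hT⟩ := c₁
      obtain ⟨T', hT'⟩ := c₂
      obtain ⟨P, -, hP⟩ := covers_prod hT hT'
      exact ⟨P, hP⟩
  have s2 := covN_prod_le c₁ c₂
  have s5 := covN_prod_ge hL₁.2.1 hL₁.2.2.2 hL₂.2.1 hL₂.2.2.2 (cov_ex hK₁ hL₁) (cov_ex hK₂ hL₂)
  have p0 : 0 < covN (polar (prodG L₁ L₂)) ((4 * a) • polar (prodG K₁ K₂)) :=
    covN_pos (nonempty_of_symBody (symBody_polar _ hL))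
      (cov_ex (symBody_polar _ hL) (symBody_smul (4 * a) (by positivity) _ (symBody_polar _ hK)))
  have p₁ : 0 < covN (polar L₁) ((2 * a) • polar K₁) := covN_pos (nonempty_of_symBody hpL₁) c₁
  have p₂ : 0 < covN (polar L₂) ((2 * a) • polar K₂) := covN_pos (nonempty_of_symBody hpL₂) c₂
  have q₁ : 0 < covN K₁ ((2 : ℝ) • L₁) :=
    covN_pos (nonempty_of_symBody hK₁) (cov_ex hK₁ (symBody_smul 2 (by norm_num) _ hL₁))
  have q₂ : 0 < covN K₂ ((2 : ℝ) • L₂) :=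
    covN_pos (nonempty_of_symBody hK₂) (cov_ex hK₂ (symBody_smul 2 (by norm_num) _ hL₂))
  have l1 := log_cast_le p0 (s1.trans s2)
  rw [log_mul_cast p₁ p₂] at l1
  have l2 := log_cast_le (Nat.mul_pos q₁ q₂) s5
  rw [log_mul_cast q₁ q₂] at l2
  have hb' : 0 ≤ 1 / b := by positivity
  calc 1 / b * Real.log (covN (polar (prodG L₁ L₂)) ((4 * a) • polar (prodG K₁ K₂)))
      ≤ 1 / b * (Real.log (covN (polar L₁) ((2 * a) • polar K₁))
          + Real.log (covN (polar L₂) ((2 * a) • polar K₂))) := mul_le_mul_of_nonneg_left l1 hb'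
    _ ≤ Real.log (covN K₁ ((2 : ℝ) • L₁)) + Real.log (covN K₂ ((2 : ℝ) • L₂)) := by
        rw [mul_add]; exact add_le_add h₁ h₂
    _ ≤ _ := l2

/-- right inequality -/
theorem dual_right (a b : ℝ) (ha : 0 < a) (hb : 0 < b)
    (K₁ L₁ : Set (ι → ℝ)) (K₂ L₂ : Set (κ → ℝ))
    (hK₁ : SymBody K₁) (hL₁ : SymBody L₁) (hK₂ : SymBody K₂) (hL₂ : SymBody L₂)
    (h₁ : Real.log (covN K₁ L₁) ≤ b * Real.log (covN (polar L₁) (a⁻¹ • polar K₁)))
    (h₂ : Real.log (covN K₂ L₂) ≤ b * Real.log (covN (polar L₂) (a⁻¹ • polar K₂))) :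
    Real.log (covN (prodG K₁ K₂) (prodG L₁ L₂))
      ≤ b * Real.log (covN (polar (prodG L₁ L₂)) ((4 * a)⁻¹ • polar (prodG K₁ K₂))) := by
  have h2a : (0 : ℝ) < (2 * a)⁻¹ := by positivity
  have hpK₁ := symBody_polar K₁ hK₁
  have hpK₂ := symBody_polar K₂ hK₂
  have hpL₁ := symBody_polar L₁ hL₁
  have hpL₂ := symBody_polar L₂ hL₂
  have hK := symBody_prodG K₁ K₂ hK₁ hK₂
  have hL := symBody_prodG L₁ L₂ hL₁ hL₂
  have hB₁ := symBody_smul (2 * a)⁻¹ h2a _ hpK₁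
  have hB₂ := symBody_smul (2 * a)⁻¹ h2a _ hpK₂
  have s1 := covN_prod_le (cov_ex hK₁ hL₁) (cov_ex hK₂ hL₂)
  have s3 := covN_prod_ge hB₁.2.1 hB₁.2.2.2 hB₂.2.1 hB₂.2.2.2 (cov_ex hpL₁ hB₁) (cov_ex hpL₂ hB₂)
  have e₁ : (2 : ℝ) • ((2 * a)⁻¹ • polar K₁) = a⁻¹ • polar K₁ := by
    rw [smul_smul]; congr 1; field_simp
  have e₂ : (2 : ℝ) • ((2 * a)⁻¹ • polar K₂) = a⁻¹ • polar K₂ := by
    rw [smul_smul]; congr 1; field_simp
  rw [e₁, e₂, ← prodG_smul (2 * a)⁻¹ h2a.ne'] at s3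
  have hcov : ∃ T : Finset (ι ⊕ κ → ℝ), Covers T ((2 : ℝ) • polar (prodG L₁ L₂))
      ((2 * a)⁻¹ • polar (prodG K₁ K₂)) :=
    cov_ex (symBody_smul 2 (by norm_num) _ (symBody_polar _ hL))
      (symBody_smul _ h2a _ (symBody_polar _ hK))
  have s4 : covN (prodG (polar L₁) (polar L₂)) ((2 * a)⁻¹ • prodG (polar K₁) (polar K₂))
      ≤ covN ((2 : ℝ) • polar (prodG L₁ L₂)) ((2 * a)⁻¹ • polar (prodG K₁ K₂)) :=
    covN_mono (prodG_polar_subset L₁ L₂)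
      (Set.smul_set_mono (polar_prodG_subset K₁ K₂ (zero_mem _ hK₁) (zero_mem _ hK₂))) hcov
  have e5 : covN ((2 : ℝ) • polar (prodG L₁ L₂)) ((2 * a)⁻¹ • polar (prodG K₁ K₂))
      = covN (polar (prodG L₁ L₂)) ((4 * a)⁻¹ • polar (prodG K₁ K₂)) := by
    rw [← covN_smul (2 : ℝ) (by norm_num) (polar (prodG L₁ L₂)), smul_smul]
    congr 2
    field_simp
    norm_num
  rw [e5] at s4
  have p0 : 0 < covN (prodG K₁ K₂) (prodG L₁ L₂) := covN_pos (nonempty_of_symBody hK) (cov_ex hK hL)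
  have p₁ : 0 < covN K₁ L₁ := covN_pos (nonempty_of_symBody hK₁) (cov_ex hK₁ hL₁)
  have p₂ : 0 < covN K₂ L₂ := covN_pos (nonempty_of_symBody hK₂) (cov_ex hK₂ hL₂)
  have ha' : (0 : ℝ) < a⁻¹ := by positivity
  have q₁ : 0 < covN (polar L₁) (a⁻¹ • polar K₁) :=
    covN_pos (nonempty_of_symBody hpL₁) (cov_ex hpL₁ (symBody_smul _ ha' _ hpK₁))
  have q₂ : 0 < covN (polar L₂) (a⁻¹ • polar K₂) :=
    covN_pos (nonempty_of_symBody hpL₂) (cov_ex hpL₂ (symBody_smul _ ha' _ hpK₂))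
  have l1 := log_cast_le p0 s1
  rw [log_mul_cast p₁ p₂] at l1
  have l2 := log_cast_le (Nat.mul_pos q₁ q₂) (s3.trans s4)
  rw [log_mul_cast q₁ q₂] at l2
  calc Real.log (covN (prodG K₁ K₂) (prodG L₁ L₂))
      ≤ Real.log (covN K₁ L₁) + Real.log (covN K₂ L₂) := l1
    _ ≤ b * (Real.log (covN (polar L₁) (a⁻¹ • polar K₁))
          + Real.log (covN (polar L₂) (a⁻¹ • polar K₂))) := by
        rw [mul_add]; exact add_le_add h₁ h₂
    _ ≤ _ := mul_le_mul_of_nonneg_left l2 hb.le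

/-- The duality inequalities pass to Cartesian products, with `a` replaced by `4 a`. -/
theorem dual_prod (a b : ℝ) (ha : 0 < a) (hb : 0 < b)
    (K₁ L₁ : Set (ι → ℝ)) (K₂ L₂ : Set (κ → ℝ))
    (hK₁ : SymBody K₁) (hL₁ : SymBody L₁) (hK₂ : SymBody K₂) (hL₂ : SymBody L₂)
    (h₁ : Dual a b K₁ L₁) (h₂ : Dual a b K₂ L₂)
    (h₁' : Dual a b K₁ ((2 : ℝ) • L₁)) (h₂' : Dual a b K₂ ((2 : ℝ) • L₂)) :
    Dual (4 * a) b (prodG K₁ K₂) (prodG L₁ L₂) :=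
  ⟨dual_left a b ha hb K₁ L₁ K₂ L₂ hK₁ hL₁ hK₂ hL₂ h₁'.1 h₂'.1,
    dual_right a b ha hb K₁ L₁ K₂ L₂ hK₁ hL₁ hK₂ hL₂ h₁.2 h₂.2⟩

end P126
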