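import Vale.Agent.Lib.P126.RDefs

/-! # P126 unit W0: linearity and adjointness -/

namespace P126
open P248
open scoped Pointwise
variable {ι : Type*} [Fintype ι] {N : ℕ}

/-- `dotProduct_sum`, `dotProduct_smul`, `Finset.sum_congr`, `mul_comm`. -/
theorem dot_Tm (u : Fin N → ι → ℝ) (x : ι → ℝ) (y : Fin N → ℝ) : Tm u x ⬝ᵥ y = x ⬝ᵥ Ts u y := by
  unfold Ts Tm
  rw [dotProduct_sum]
  simp only [dotProduct_smul, smul_eq_mul]
  unfold dotProduct
  exact Finset.sum_congr rfl fun i _ => mul_comm _ _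

theorem Tm_sub (u : Fin N → ι → ℝ) (x x' : ι → ℝ) : Tm u (x - x') = Tm u x - Tm u x' := by
  funext i
  simp [Tm, sub_dotProduct]

theorem Ts_sub (u : Fin N → ι → ℝ) (y y' : Fin N → ℝ) : Ts u (y - y') = Ts u y - Ts u y' := by
  unfold Ts
  rw [← Finset.sum_sub_distrib]
  exact Finset.sum_congr rfl fun i _ => by rw [Pi.sub_apply, sub_smul]

theorem Ts_smul (u : Fin N → ι → ℝ) (t : ℝ) (y : Fin N → ℝ) : Ts u (t • y) = t • Ts u y := by
  unfold Ts
  rw [Finset.smul_sum]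
  exact Finset.sum_congr rfl fun i _ => by rw [Pi.smul_apply, smul_eq_mul, mul_smul]

theorem mem_slabs_iff (u : Fin N → ι → ℝ) (x : ι → ℝ) : x ∈ slabs u ↔ Tm u x ∈ cube N := Iff.rfl

theorem Tm_mem_fat (u : Fin N → ι → ℝ) (ε : ℝ) (K : Set (ι → ℝ)) {x : ι → ℝ} (hx : x ∈ K) :
    Tm u x ∈ fat u ε K := by
  refine ⟨x, hx, 0, ?_, by simp⟩
  intro i
  simp

end P126
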