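import Vale.Agent.Lib.P126.RBipolar

/-! # P126 units W9, W11: approximation of a symmetric convex body by a symmetric polytope -/

namespace P126
open P248
open scoped Pointwise
variable {ι : Type*} [Fintype ι] {N : ℕ}

/-- W9.  `exists_sep` with `A = polar L`, `B = (1/4) • polar L` (`symBody_polar`, `symBody_smul`, `cov_ex`) gives a finite
`S ⊆ polar L` with `Covers S (polar L) ((2 : ℝ) • ((1/4 : ℝ) • polar L))`, i.e. every `y ∈ polar L` is `c + (1/2) • y'`,
`c ∈ S`, `y' ∈ polar L`.  Let `u` enumerate `S` (`S.equivFin.symm`).  `L ⊆ slabs u`: `x ⬝ᵥ c ≤ 1` and `(-x) ⬝ᵥ c ≤ 1`.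
`slabs u ⊆ 2 • L`: for `x ∈ slabs u` the continuous `y ↦ x ⬝ᵥ y` attains its maximum `h` on the compact `polar L`
(`IsCompact.exists_isMaxOn`); at the maximiser `h = x ⬝ᵥ c + (1/2) * x ⬝ᵥ y' ≤ 1 + h / 2`, so `h ≤ 2`; hence
`(1/2) • x ∈ polar (polar L) ⊆ L` (`bipolar_subset`; mind `dotProduct_comm`). -/
theorem exists_slabs (L : Set (ι → ℝ)) (hL : SymBody L) :
    ∃ (N : ℕ) (u : Fin N → ι → ℝ), L ⊆ slabs u ∧ slabs u ⊆ (2 : ℝ) • L := by
  classical
  have hP := symBody_polar L hL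
  have hB := symBody_smul (1 / 4 : ℝ) (by norm_num) _ hP
  obtain ⟨S, hSA, -, hcov⟩ := exists_sep hB.2.1 hB.2.2.2 (cov_ex hP hB)
  refine ⟨S.card, fun i => (S.equivFin.symm i : ι → ℝ), ?_, ?_⟩
  · intro x hx i
    have hc : ((S.equivFin.symm i : ι → ℝ)) ∈ polar L := hSA _ (S.equivFin.symm i).2
    rw [abs_le]
    constructor
    · have := hc (-x) (hL.2.2.2 x hx)
      rw [neg_dotProduct] at this
      linarith
    · exact hc x hx
  · intro x hx
    obtain ⟨y0, hy0, hmax⟩ := hP.1.exists_isMaxOn ⟨0, zero_mem _ hP⟩ (f := fun y => x ⬝ᵥ y)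
      (continuous_const.dotProduct continuous_id).continuousOn
    obtain ⟨c, hc, hmem⟩ := hcov y0 hy0
    obtain ⟨w, ⟨y', hy', rfl⟩, hw⟩ := hmem
    have e : y0 = c + (1 / 2 : ℝ) • y' := by
      have e1 : (2 : ℝ) • ((1 / 4 : ℝ) • y') = (1 / 2 : ℝ) • y' := by
        rw [smul_smul]; norm_num
      simp only at hw
      rw [e1] at hw
      rw [hw]; abel
    have h1 : x ⬝ᵥ c ≤ 1 := by
      have := hx (S.equivFin ⟨c, hc⟩)
      simp only [Equiv.symm_apply_apply] at this
      exact (abs_le.mp this).2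
    have h2 : x ⬝ᵥ y' ≤ x ⬝ᵥ y0 := hmax hy'
    have h3 : x ⬝ᵥ y0 = x ⬝ᵥ c + (1 / 2) * (x ⬝ᵥ y') := by
      rw [e, dotProduct_add, dotProduct_smul, smul_eq_mul]
    have h4 : x ⬝ᵥ y0 ≤ 2 := by linarith
    have h5 : (1 / 2 : ℝ) • x ∈ polar (polar L) := by
      intro y hy
      rw [dotProduct_smul, smul_eq_mul, dotProduct_comm]
      have : x ⬝ᵥ y ≤ x ⬝ᵥ y0 := hmax hy
      linarith
    have h6 := bipolar_subset L hL h5
    exact ⟨(1 / 2 : ℝ) • x, h6, by simp only; rw [smul_smul]; norm_num⟩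

/-- W11.  Closed (finite intersection of closed sets) inside the compact `2 • L` (`IsCompact.of_isClosed_subset`); convex
(`abs_le`, two linear inequalities); `interior_mono`; symmetric (`neg_dotProduct`, `abs_neg`). -/
theorem symBody_slabs (L : Set (ι → ℝ)) (hL : SymBody L) (u : Fin N → ι → ℝ) (h1 : L ⊆ slabs u)
    (h2 : slabs u ⊆ (2 : ℝ) • L) : SymBody (slabs u) := by
  have hclosed : IsClosed (slabs u) := by
    have : slabs u = ⋂ i, {x : ι → ℝ | |x ⬝ᵥ u i| ≤ 1} := by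
      ext x; simp [slabs]
    rw [this]
    exact isClosed_iInter fun i =>
      isClosed_le ((continuous_id.dotProduct continuous_const).abs) continuous_const
  refine ⟨(hL.1.smul 2).of_isClosed_subset hclosed h2, ?_, hL.2.2.1.mono (interior_mono h1), ?_⟩
  · intro x hx y hy a b ha hb hab i
    have hx' := abs_le.mp (hx i)
    have hy' := abs_le.mp (hy i)
    rw [add_dotProduct, smul_dotProduct, smul_dotProduct, smul_eq_mul, smul_eq_mul, abs_le]
    constructor <;> nlinarith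
  · intro x hx i
    rw [neg_dotProduct, abs_neg]
    exact hx i

end P126
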