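import Vale.Agent.Lib.P126.RDefs

/-! # P126 unit W10: the bipolar theorem for symmetric convex bodies -/

namespace P126
open P248
open scoped Pointwise
variable {ι : Type*} [Fintype ι] {N : ℕ}

/-- W10.  If `z ∉ L` (`L` compact convex, `0 ∈ L` by `zero_mem`), `geometric_hahn_banach_compact_point` (or
`_closed_point`) gives a continuous linear `f` and `c` with `f m < c < f z` on `L`; `c > 0`.  With
`y = fun j => f (Pi.single j 1) / c` one has `v ⬝ᵥ y = f v / c` (`pi_eq_sum_univ`), so `y ∈ polar L` and `z ⬝ᵥ y > 1`;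
hence `z ∉ polar (polar L)` (mind `dotProduct_comm`). -/
theorem bipolar_subset (L : Set (ι → ℝ)) (hL : SymBody L) : polar (polar L) ⊆ L := by
  classical
  intro z hz
  by_contra hzL
  obtain ⟨f, c, hfL, hcz⟩ := geometric_hahn_banach_closed_point hL.2.1 hL.1.isClosed hzL
  have h0 : (0 : ι → ℝ) ∈ L := zero_mem L hL
  have hc : 0 < c := by
    have := hfL 0 h0
    simpa using this
  set y : ι → ℝ := fun j => f (Pi.single j 1) / c with hy
  have hyv : ∀ v : ι → ℝ, v ⬝ᵥ y = f v / c := by
    intro v
    have hv : f v = ∑ j, v j * f (Pi.single j 1) := by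
      conv_lhs => rw [pi_eq_sum_univ' v]
      rw [map_sum]
      refine Finset.sum_congr rfl (fun j _ => ?_)
      rw [map_smul, smul_eq_mul]
    rw [hv, Finset.sum_div]
    unfold dotProduct
    refine Finset.sum_congr rfl (fun j _ => ?_)
    simp only [hy]
    ring
  have hyL : y ∈ polar L := by
    intro v hv
    rw [hyv, div_le_iff₀ hc]
    have := hfL v hv
    linarith
  have := hz y hyL
  rw [dotProduct_comm, hyv, div_le_iff₀ hc] at this
  linarith

end P126
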