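import Vale.Agent.Lib.P126.RDefs

/-! # P126 units W1, W2, W8: the cube and the fattened image are bodies -/

namespace P126
open P248
open scoped Pointwise
variable {ι : Type*} [Fintype ι] {N : ℕ}

theorem cube_eq_Icc20 (N : ℕ) :
    cube N = Set.Icc (fun _ => (-1 : ℝ)) (fun _ => (1 : ℝ)) := by
  ext x
  simp only [cube, Set.mem_ofPred_eq, Set.mem_Icc, Pi.le_def, abs_le]
  exact ⟨fun h => ⟨fun i => (h i).1, fun i => (h i).2⟩, fun h i => ⟨h.1 i, h.2 i⟩⟩

/-- W1.  `cube N = Set.Icc (-1) 1` (see `P248.seg_eq_Icc`, `P248.symBody_seg` in `P248/Interval.lean`). -/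
theorem symBody_cube (N : ℕ) : SymBody (cube N) := by
  refine ⟨?_, ?_, ?_, ?_⟩
  · rw [cube_eq_Icc20]; exact isCompact_Icc
  · rw [cube_eq_Icc20]; exact convex_Icc _ _
  · refine ⟨0, ?_⟩
    rw [mem_interior]
    refine ⟨{x | ∀ i, |x i| < 1}, fun x hx i => (hx i).le, ?_, by intro i; simp⟩
    have h : {x : Fin N → ℝ | ∀ i, |x i| < 1} = ⋂ i, {x | |x i| < 1} := by ext; simp
    rw [h]
    exact isOpen_iInter_of_finite fun i => isOpen_lt (by fun_prop) continuous_const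
  · intro x hx i
    simpa using hx i

theorem Tm_add20 (u : Fin N → ι → ℝ) (x x' : ι → ℝ) : Tm u (x + x') = Tm u x + Tm u x' := by
  funext i
  simp [Tm, add_dotProduct]

theorem Tm_smul20 (u : Fin N → ι → ℝ) (t : ℝ) (x : ι → ℝ) : Tm u (t • x) = t • Tm u x := by
  funext i
  simp [Tm, smul_dotProduct]

/-- W2.  Continuous image of the compact `K ×ˢ cube N`; convex and symmetric directly (`Tm u` is linear);
contains `ε • cube N` (take `x = 0`, `zero_mem`), whose interior is nonempty (`symBody_smul`, `symBody_cube`). -/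
theorem symBody_fat (u : Fin N → ι → ℝ) (ε : ℝ) (hε : 0 < ε) (K : Set (ι → ℝ)) (hK : SymBody K) :
    SymBody (fat u ε K) := by
  have hC := symBody_cube N
  have himg : fat u ε K = (fun p : (ι → ℝ) × (Fin N → ℝ) => Tm u p.1 + ε • p.2) '' (K ×ˢ cube N) := by
    ext w
    constructor
    · rintro ⟨x, hx, q, hq, rfl⟩
      exact ⟨(x, q), ⟨hx, hq⟩, rfl⟩
    · rintro ⟨⟨x, q⟩, ⟨hx, hq⟩, rfl⟩
      exact ⟨x, hx, q, hq, rfl⟩
  refine ⟨?_, ?_, ?_, ?_⟩
  · rw [himg]
    refine (hK.1.prod hC.1).image ?_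
    have h1 : Continuous fun x : ι → ℝ => Tm u x := by
      unfold Tm dotProduct
      fun_prop
    exact (h1.comp continuous_fst).add (continuous_snd.const_smul ε)
  · rintro _ ⟨x, hx, q, hq, rfl⟩ _ ⟨x', hx', q', hq', rfl⟩ a b ha hb hab
    refine ⟨a • x + b • x', hK.2.1 hx hx' ha hb hab, a • q + b • q', hC.2.1 hq hq' ha hb hab, ?_⟩
    rw [Tm_add20, Tm_smul20, Tm_smul20]
    simp only [smul_add, smul_comm ε]
    abel
  · have hsub : ε • cube N ⊆ fat u ε K := by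
      rintro _ ⟨q, hq, rfl⟩
      refine ⟨0, zero_mem K hK, q, hq, ?_⟩
      have : Tm u (0 : ι → ℝ) = 0 := by funext i; simp [Tm]
      simp [this]
    exact (symBody_smul ε hε _ hC).2.2.1.mono (interior_mono hsub)
  · rintro _ ⟨x, hx, q, hq, rfl⟩
    refine ⟨-x, hK.2.2.2 x hx, -q, hC.2.2.2 q hq, ?_⟩
    have : Tm u (-x) = - Tm u x := by funext i; simp [Tm]
    rw [this, smul_neg, neg_add]

/-- W8.  `s • x = t • ((s / t) • x)` and `(s / t) • x = (s / t) • x + (1 - s / t) • 0 ∈ K`. -/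
theorem smul_subset_smul (K : Set (ι → ℝ)) (hK : SymBody K) (s t : ℝ) (hs : 0 ≤ s) (hst : s ≤ t)
    (ht : 0 < t) : s • K ⊆ t • K := by
  rintro _ ⟨x, hx, rfl⟩
  refine ⟨(s / t) • x, ?_, ?_⟩
  · have h := hK.2.1 hx (zero_mem K hK) (div_nonneg hs ht.le)
      (sub_nonneg.mpr ((div_le_one ht).mpr hst)) (by ring)
    simpa using h
  · simp only [smul_smul]
    congr 1
    field_simp

end P126
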