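import Vale.Agent.Lib.P126.RAdj

/-! # P126 unit W3 -/

namespace P126
open P248
open scoped Pointwise
variable {ι : Type*} [Fintype ι] {N : ℕ}

/-- W3.  Optimal cover `T` of `K` by `slabs u` (`exists_covers`); centres `T.image (Tm u)` (`Finset.card_image_le`,
`covN_le`): for `w = Tm u x + ε • q` and `x - c ∈ slabs u`, `w - Tm u c = Tm u (x - c) + ε • q` has all coordinates of
absolute value `≤ 1 + ε`, so it is `(1 + ε) • ((1 + ε)⁻¹ • _)`. -/
theorem covN_fat_le (u : Fin N → ι → ℝ) (ε : ℝ) (hε : 0 ≤ ε) (K : Set (ι → ℝ))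
    (h : ∃ T : Finset (ι → ℝ), Covers T K (slabs u)) :
    covN (fat u ε K) ((1 + ε) • cube N) ≤ covN K (slabs u) := by
  classical
  obtain ⟨T, hc, hT⟩ := exists_covers h
  rw [← hc]
  refine (covN_le (T := T.image (Tm u)) ?_).trans Finset.card_image_le
  rintro w ⟨x, hx, q, hq, rfl⟩
  obtain ⟨c, hcT, hcs⟩ := hT x hx
  refine ⟨Tm u c, Finset.mem_image_of_mem _ hcT, ?_⟩
  have hpos : (0 : ℝ) < 1 + ε := by linarith
  rw [Set.mem_smul_set_iff_inv_smul_mem₀ hpos.ne']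
  intro i
  have h1 : |Tm u (x - c) i| ≤ 1 := hcs i
  have h2 : |q i| ≤ 1 := hq i
  have e : ((1 + ε)⁻¹ • (Tm u x + ε • q - Tm u c)) i = (1 + ε)⁻¹ * (Tm u (x - c) i + ε * q i) := by
    rw [Tm_sub]
    simp only [Pi.smul_apply, Pi.sub_apply, Pi.add_apply, smul_eq_mul]
    ring
  rw [e, abs_mul, abs_of_pos (inv_pos.2 hpos), inv_mul_le_iff₀ hpos, mul_one]
  calc |Tm u (x - c) i + ε * q i| ≤ |Tm u (x - c) i| + |ε * q i| := abs_add_le _ _
    _ ≤ 1 + ε * 1 := by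
        rw [abs_mul, abs_of_nonneg hε]
        exact add_le_add h1 (mul_le_mul_of_nonneg_left h2 hε)
    _ = 1 + ε := by ring

end P126
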