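import Vale.Agent.Lib.P126.RAdj

/-! # P126 unit W4 -/

namespace P126
open P248
open scoped Pointwise
variable {ι : Type*} [Fintype ι] {N : ℕ}

/-- W4.  Optimal cover `T` of `fat u ε K` by `(1/2) • cube N`.  For `c ∈ T` let `g c` be some `x ∈ K` with
`Tm u x - c ∈ (1/2) • cube N` if there is one (`0` otherwise; `Classical.choose`/`dite`); centres `T.image g`.
For `x ∈ K`: `Tm u x ∈ fat u ε K` (`Tm_mem_fat`), so `Tm u x - c ∈ (1/2) • cube N` for some `c ∈ T`, and then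
`Tm u (x - g c) = (Tm u x - c) - (Tm u (g c) - c)` has coordinates of absolute value `≤ 1`. -/
theorem covN_le_fat (u : Fin N → ι → ℝ) (ε : ℝ) (K : Set (ι → ℝ))
    (h : ∃ T : Finset (Fin N → ℝ), Covers T (fat u ε K) ((1 / 2 : ℝ) • cube N)) :
    covN K (slabs u) ≤ covN (fat u ε K) ((1 / 2 : ℝ) • cube N) := by
  classical
  obtain ⟨T, hc, hT⟩ := exists_covers h
  rw [← hc]
  let g : (Fin N → ℝ) → (ι → ℝ) := fun c =>
    if hh : ∃ x ∈ K, Tm u x - c ∈ (1 / 2 : ℝ) • cube N then hh.choose else 0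
  refine (covN_le (T := T.image g) ?_).trans Finset.card_image_le
  intro x hx
  obtain ⟨c, hcT, hcs⟩ := hT (Tm u x) (Tm_mem_fat u ε K hx)
  refine ⟨g c, Finset.mem_image_of_mem _ hcT, ?_⟩
  have hh : ∃ x ∈ K, Tm u x - c ∈ (1 / 2 : ℝ) • cube N := ⟨x, hx, hcs⟩
  have hg : g c = hh.choose := by
    simp only [g]
    rw [dif_pos hh]
  have hg2 : Tm u (g c) - c ∈ (1 / 2 : ℝ) • cube N := by
    rw [hg]
    exact hh.choose_spec.2
  have half : ∀ v : Fin N → ℝ, v ∈ (1 / 2 : ℝ) • cube N → ∀ i, |v i| ≤ 1 / 2 := by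
    rintro _ ⟨q, hq, rfl⟩ i
    have := hq i
    simp only [Pi.smul_apply, smul_eq_mul, abs_mul]
    rw [abs_of_pos (by norm_num : (0:ℝ) < 1 / 2)]
    linarith
  intro i
  have h1 := half _ hcs i
  have h2 := half _ hg2 i
  have e : (x - g c) ⬝ᵥ u i = (Tm u x - c) i - (Tm u (g c) - c) i := by
    have : (x - g c) ⬝ᵥ u i = Tm u (x - g c) i := rfl
    rw [this, Tm_sub]
    simp
  rw [e]
  calc |(Tm u x - c) i - (Tm u (g c) - c) i| ≤ |(Tm u x - c) i| + |(Tm u (g c) - c) i| := abs_sub _ _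
    _ ≤ 1 := by linarith

end P126
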