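import Vale.Agent.Lib.P126.RSep

/-! # P126 unit W5 -/

namespace P126
open P248
open scoped Pointwise
variable {ι : Type*} [Fintype ι] {N : ℕ}

/-- W5.  Optimal cover `T` of `polar (cube N)`; centres `T.image (Ts u)`.  For `z ∈ polar (slabs u)` write `z = Ts u y`,
`y ∈ polar (cube N)` (`polar_slabs_subset`); `y - c = s • v`, `v ∈ polar (fat u ε K)`; then
`z - Ts u c = s • Ts u v` (`Ts_sub`, `Ts_smul`) and `Ts u v ∈ polar K` because `x ⬝ᵥ Ts u v = Tm u x ⬝ᵥ v ≤ 1`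
(`dot_Tm`, `Tm_mem_fat`). -/
theorem covN_polar_le (u : Fin N → ι → ℝ) (ε s : ℝ) (K : Set (ι → ℝ))
    (h : ∃ T : Finset (Fin N → ℝ), Covers T (polar (cube N)) (s • polar (fat u ε K))) :
    covN (polar (slabs u)) (s • polar K) ≤ covN (polar (cube N)) (s • polar (fat u ε K)) := by
  classical
  obtain ⟨T, hc, hT⟩ := exists_covers h
  rw [← hc]
  refine (covN_le (T := T.image (Ts u)) ?_).trans Finset.card_image_le
  intro z hz
  obtain ⟨y, hy, rfl⟩ := polar_slabs_subset u hz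
  obtain ⟨c, hcT, v, hv, hvc⟩ := hT y hy
  refine ⟨Ts u c, Finset.mem_image_of_mem _ hcT, Ts u v, ?_, ?_⟩
  · intro x hx
    rw [← dot_Tm]
    exact hv _ (Tm_mem_fat u ε K hx)
  · show s • Ts u v = Ts u y - Ts u c
    rw [← Ts_smul, ← Ts_sub]
    congr 1

end P126
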