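import Vale.Agent.Lib.P126.RAdj

/-! # P126 unit W7 -/

namespace P126
open P248
open scoped Pointwise
variable {ι : Type*} [Fintype ι] {N : ℕ}

/-- W7.  Optimal cover `T` of `polar (slabs u)` by `s • polar K`.  For `c ∈ T` let `g c` be some `y ∈ polar (cube N)` with
`Ts u y - c ∈ s • polar K` if there is one (`0` otherwise); centres `T.image g`.  For `y ∈ polar (cube N)`:
`Ts u y ∈ polar (slabs u)` (`x ⬝ᵥ Ts u y = Tm u x ⬝ᵥ y ≤ 1` as `Tm u x ∈ cube N`), so `Ts u y - c = s • p`,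
`Ts u (g c) - c = s • p'` with `p, p' ∈ polar K`.  For `w = Tm u x + ε • q ∈ fat u ε K`:
`w ⬝ᵥ (y - g c) = x ⬝ᵥ (s • p - s • p') + ε * (q ⬝ᵥ y + (-q) ⬝ᵥ g c) ≤ 2 s + 2 ε` (use `-x ∈ K`, `-q ∈ cube N`).
Hence `y - g c = (2 s + 2 ε) • ((2 s + 2 ε)⁻¹ • (y - g c))` with the second factor in `polar (fat u ε K)`. -/
theorem covN_polar_ge (u : Fin N → ι → ℝ) (ε s : ℝ) (hε : 0 < ε) (hs : 0 < s) (K : Set (ι → ℝ))
    (hsym : ∀ x ∈ K, -x ∈ K)
    (h : ∃ T : Finset (ι → ℝ), Covers T (polar (slabs u)) (s • polar K)) :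
    covN (polar (cube N)) ((2 * s + 2 * ε) • polar (fat u ε K)) ≤ covN (polar (slabs u)) (s • polar K) := by
  classical
  obtain ⟨T, hcard, hT⟩ := exists_covers h
  let g : (ι → ℝ) → (Fin N → ℝ) := fun c =>
    if hc : ∃ y, y ∈ polar (cube N) ∧ Ts u y - c ∈ s • polar K then hc.choose else 0
  have hg : ∀ c, (∃ y, y ∈ polar (cube N) ∧ Ts u y - c ∈ s • polar K) →
      g c ∈ polar (cube N) ∧ Ts u (g c) - c ∈ s • polar K := by
    intro c hc
    have : g c = hc.choose := by simp only [g, dif_pos hc]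
    rw [this]
    exact hc.choose_spec
  have hcov : Covers (T.image g) (polar (cube N)) ((2 * s + 2 * ε) • polar (fat u ε K)) := by
    intro y hy
    have hy1 : Ts u y ∈ polar (slabs u) := by
      intro x hx
      rw [← dot_Tm]
      exact hy _ ((mem_slabs_iff u x).1 hx)
    obtain ⟨c, hcT, hc⟩ := hT _ hy1
    obtain ⟨hy', hc'⟩ := hg c ⟨y, hy, hc⟩
    refine ⟨g c, Finset.mem_image_of_mem g hcT, ?_⟩
    obtain ⟨p, hp, hpe⟩ := Set.mem_smul_set.1 hc
    obtain ⟨p', hp', hpe'⟩ := Set.mem_smul_set.1 hc'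
    have hpos : 0 < 2 * s + 2 * ε := by positivity
    refine Set.mem_smul_set.2 ⟨(2 * s + 2 * ε)⁻¹ • (y - g c), ?_, ?_⟩
    · intro w hw
      obtain ⟨x, hx, q, hq, rfl⟩ := hw
      have hTs : Ts u (y - g c) = s • p - s • p' := by
        rw [Ts_sub, hpe, hpe']
        abel
      have e1 : Tm u x ⬝ᵥ (y - g c) = s * (x ⬝ᵥ p) + s * ((-x) ⬝ᵥ p') := by
        rw [dot_Tm, hTs, dotProduct_sub, dotProduct_smul, dotProduct_smul, neg_dotProduct]
        simp only [smul_eq_mul]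
        ring
      have hnq : -q ∈ cube N := by
        intro i
        simpa using hq i
      have e2 : q ⬝ᵥ (y - g c) = q ⬝ᵥ y + (-q) ⬝ᵥ g c := by
        rw [dotProduct_sub, neg_dotProduct]
        ring
      have b1 := hp x hx
      have b2 := hp' (-x) (hsym x hx)
      have b3 := hy q hq
      have b4 := hy' (-q) hnq
      have tot : (Tm u x + ε • q) ⬝ᵥ (y - g c) ≤ 2 * s + 2 * ε := by
        rw [add_dotProduct, smul_dotProduct, e1, e2, smul_eq_mul]
        nlinarith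
      rw [dotProduct_smul, smul_eq_mul, inv_mul_le_iff₀ hpos, mul_one]
      exact tot
    · rw [smul_smul, mul_inv_cancel₀ hpos.ne', one_smul]
  calc covN (polar (cube N)) ((2 * s + 2 * ε) • polar (fat u ε K)) ≤ (T.image g).card := covN_le hcov
    _ ≤ T.card := Finset.card_image_le
    _ = covN (polar (slabs u)) (s • polar K) := hcard

end P126
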