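import Vale.Agent.Lib.P126.ProdMain

/-! # P126 part 3: reduction of the duality conjecture to `L = cube` (definitions) -/

namespace P126
open P248
open scoped Pointwise
variable {ι : Type*} [Fintype ι] {N : ℕ}

/-- The cube `[-1,1]^N`. -/
def cube (N : ℕ) : Set (Fin N → ℝ) := {q | ∀ i, |q i| ≤ 1}

/-- The symmetric polyhedron `{x : |⟨x, u i⟩| ≤ 1 for all i}`. -/
def slabs (u : Fin N → ι → ℝ) : Set (ι → ℝ) := {x | ∀ i, |x ⬝ᵥ u i| ≤ 1}

/-- `T x = (⟨x, u i⟩)_i`. -/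
def Tm (u : Fin N → ι → ℝ) (x : ι → ℝ) : Fin N → ℝ := fun i => x ⬝ᵥ u i

/-- The adjoint `T* y = ∑ y i • u i`. -/
def Ts (u : Fin N → ι → ℝ) (y : Fin N → ℝ) : ι → ℝ := ∑ i, y i • u i

/-- The body `T K + ε [-1,1]^N`. -/
def fat (u : Fin N → ι → ℝ) (ε : ℝ) (K : Set (ι → ℝ)) : Set (Fin N → ℝ) :=
  {w | ∃ x ∈ K, ∃ q ∈ cube N, w = Tm u x + ε • q}

/-- The duality inequalities with constants `a, b` for all pairs `(M, cube)`, in all dimensions. -/
def CubeDual (a b : ℝ) : Prop :=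
  ∀ (N : ℕ) (M : Set (Fin N → ℝ)), SymBody M → Dual a b M (cube N)

end P126
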