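import Vale.Agent.Lib.P126.RMain
import Vale.Agent.Lib.P126.RApprox

/-! # P126 part 3: the duality conjecture is equivalent to its case `L = cube` (assembly) -/

namespace P126
open P248
open scoped Pointwise
variable {ι : Type*} [Fintype ι] {N : ℕ}

theorem polar_anti {A B : Set (ι → ℝ)} (h : A ⊆ B) : polar B ⊆ polar A :=
  fun _ hy x hx => hy x (h hx)

/-- Duality for all pairs `(M, cube)` implies duality for all pairs of symmetric convex bodies. -/
theorem dual_full (a b : ℝ) (ha : 1 ≤ a) (hb : 0 < b) (H : CubeDual a b)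
    (K L : Set (ι → ℝ)) (hK : SymBody K) (hL : SymBody L) : Dual (16 * a) b K L := by
  have ha0 : (0 : ℝ) < a := by linarith
  obtain ⟨N, u, h1, h2⟩ := exists_slabs L hL
  have hP := symBody_slabs L hL u h1 h2
  have hpK := symBody_polar K hK
  have hpL := symBody_polar L hL
  have hpP := symBody_polar _ hP
  have two : (2 : ℝ) ≠ 0 := by norm_num
  constructor
  · have d := (dual_of_cubeDual a b ha hb H K u hK hP).1
    have i1 : polar L ⊆ (2 : ℝ) • polar (slabs u) := by
      have := polar_anti h2
      rw [polar_smul 2 (by norm_num)] at this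
      have h3 := Set.smul_set_mono (a := (2 : ℝ)) this
      rwa [smul_inv_smul₀ two] at h3
    have e : covN ((2 : ℝ) • polar (slabs u)) ((16 * a) • polar K)
        = covN (polar (slabs u)) ((8 * a) • polar K) := by
      rw [← covN_smul (2 : ℝ) two (polar (slabs u)), smul_smul]
      congr 2
      ring
    have s1 : covN (polar L) ((16 * a) • polar K) ≤ covN (polar (slabs u)) ((8 * a) • polar K) := by
      rw [← e]
      exact covN_mono i1 subset_rfl
        (cov_ex (symBody_smul 2 (by norm_num) _ hpP) (symBody_smul (16 * a) (by positivity) _ hpK))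
    have s2 : covN K (slabs u) ≤ covN K L := covN_mono subset_rfl h1 (cov_ex hK hL)
    have p0 : 0 < covN (polar L) ((16 * a) • polar K) :=
      covN_pos (nonempty_of_symBody hpL) (cov_ex hpL (symBody_smul (16 * a) (by positivity) _ hpK))
    have p1 : 0 < covN K (slabs u) := covN_pos (nonempty_of_symBody hK) (cov_ex hK hP)
    have hb' : 0 ≤ 1 / b := by positivity
    exact (mul_le_mul_of_nonneg_left (log_cast_le p0 s1) hb').trans (d.trans (log_cast_le p1 s2))
  · have hK2 := symBody_smul 2 (by norm_num) K hK
    have d := (dual_of_cubeDual a b ha hb H _ u hK2 hP).2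
    have e1 : (8 * a)⁻¹ • polar ((2 : ℝ) • K) = (16 * a)⁻¹ • polar K := by
      rw [polar_smul 2 (by norm_num), smul_smul]
      congr 1
      field_simp
      norm_num
    rw [e1] at d
    have i1 : (2 : ℝ)⁻¹ • slabs u ⊆ L := by
      have h3 := Set.smul_set_mono (a := (2 : ℝ)⁻¹) h2
      rwa [inv_smul_smul₀ two] at h3
    have e : covN ((2 : ℝ) • K) (slabs u) = covN K ((2 : ℝ)⁻¹ • slabs u) := by
      rw [← covN_smul (2 : ℝ) two K, smul_inv_smul₀ two]
    have s1 : covN K L ≤ covN ((2 : ℝ) • K) (slabs u) := by
      rw [e]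
      exact covN_mono subset_rfl i1 (cov_ex hK (symBody_smul _ (by norm_num) _ hP))
    have s2 : covN (polar (slabs u)) ((16 * a)⁻¹ • polar K) ≤ covN (polar L) ((16 * a)⁻¹ • polar K) :=
      covN_mono (polar_anti h1) subset_rfl (cov_ex hpL (symBody_smul _ (by positivity) _ hpK))
    have p0 : 0 < covN K L := covN_pos (nonempty_of_symBody hK) (cov_ex hK hL)
    have p1 : 0 < covN (polar (slabs u)) ((16 * a)⁻¹ • polar K) :=
      covN_pos (nonempty_of_symBody hpP) (cov_ex hpP (symBody_smul _ (by positivity) _ hpK))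
    exact (log_cast_le p0 s1).trans (d.trans (mul_le_mul_of_nonneg_left (log_cast_le p1 s2) hb.le))

end P126
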