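import Vale.Agent.Lib.P126.RCovA
import Vale.Agent.Lib.P126.RCovB
import Vale.Agent.Lib.P126.RCovC
import Vale.Agent.Lib.P126.RCovD

/-! # P126 part 3: reduction of the duality conjecture to `L = cube` (assembly) -/

namespace P126
open P248
open scoped Pointwise
variable {ι : Type*} [Fintype ι] {N : ℕ}

theorem red_left (a b : ℝ) (ha : 1 ≤ a) (hb : 0 < b) (H : CubeDual a b)
    (K : Set (ι → ℝ)) (u : Fin N → ι → ℝ) (hK : SymBody K) (hL : SymBody (slabs u)) :
    1 / b * Real.log (covN (polar (slabs u)) ((8 * a) • polar K)) ≤ Real.log (covN K (slabs u)) := by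
  have ha0 : (0 : ℝ) < a := by linarith
  have hF := symBody_fat u 1 one_pos K hK
  have hQ := symBody_cube N
  have hpK := symBody_polar K hK
  have hpL := symBody_polar _ hL
  have hpF := symBody_polar _ hF
  have hpQ := symBody_polar _ hQ
  have hM := symBody_smul (1 / 2 : ℝ) (by norm_num) _ hF
  have h := (H N _ hM).1
  -- rewrite the polar side
  have e1 : a • polar ((1 / 2 : ℝ) • fat u 1 K) = (2 * a) • polar (fat u 1 K) := by
    rw [polar_smul (1 / 2 : ℝ) (by norm_num), smul_smul]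
    congr 1
    norm_num
    ring
  rw [e1] at h
  -- rewrite the primal side
  have e2 : covN ((1 / 2 : ℝ) • fat u 1 K) (cube N) = covN (fat u 1 K) ((1 + 1 : ℝ) • cube N) := by
    rw [← covN_smul (2 : ℝ) (by norm_num) ((1 / 2 : ℝ) • fat u 1 K), smul_smul]
    norm_num
  rw [e2] at h
  have s1 := covN_fat_le u 1 zero_le_one K (cov_ex hK hL)
  have c2 := cov_ex hpQ (symBody_smul (2 * a) (by positivity) _ hpF)
  have s2 := covN_polar_le u 1 (2 * a) K c2
  have c3 := cov_ex hpL (symBody_smul (2 * a) (by positivity) _ hpK)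
  have s3 : covN (polar (slabs u)) ((8 * a) • polar K) ≤ covN (polar (slabs u)) ((2 * a) • polar K) :=
    covN_mono subset_rfl (smul_subset_smul _ hpK (2 * a) (8 * a) (by positivity) (by linarith)
      (by positivity)) c3
  have p0 : 0 < covN (polar (slabs u)) ((8 * a) • polar K) :=
    covN_pos (nonempty_of_symBody hpL) (cov_ex hpL (symBody_smul (8 * a) (by positivity) _ hpK))
  have p1 : 0 < covN (fat u 1 K) ((1 + 1 : ℝ) • cube N) :=
    covN_pos (nonempty_of_symBody hF) (cov_ex hF (symBody_smul _ (by norm_num) _ hQ))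
  have l1 := log_cast_le p0 (s3.trans s2)
  have l2 := log_cast_le p1 s1
  have hb' : 0 ≤ 1 / b := by positivity
  exact (mul_le_mul_of_nonneg_left l1 hb').trans (h.trans l2)

theorem red_right (a b : ℝ) (ha : 1 ≤ a) (hb : 0 < b) (H : CubeDual a b)
    (K : Set (ι → ℝ)) (u : Fin N → ι → ℝ) (hK : SymBody K) (hL : SymBody (slabs u)) :
    Real.log (covN K (slabs u)) ≤ b * Real.log (covN (polar (slabs u)) ((8 * a)⁻¹ • polar K)) := by
  have ha0 : (0 : ℝ) < a := by linarith
  have hε : (0 : ℝ) < (8 * a)⁻¹ := by positivity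
  have hF := symBody_fat u (8 * a)⁻¹ hε K hK
  have hQ := symBody_cube N
  have hpK := symBody_polar K hK
  have hpL := symBody_polar _ hL
  have hpF := symBody_polar _ hF
  have hpQ := symBody_polar _ hQ
  have hM := symBody_smul (2 : ℝ) (by norm_num) _ hF
  have h := (H N _ hM).2
  have e1 : a⁻¹ • polar ((2 : ℝ) • fat u (8 * a)⁻¹ K)
      = (2 * (8 * a)⁻¹ + 2 * (8 * a)⁻¹) • polar (fat u (8 * a)⁻¹ K) := by
    rw [polar_smul (2 : ℝ) (by norm_num), smul_smul]
    congr 1
    field_simp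
    norm_num
  rw [e1] at h
  have e2 : covN ((2 : ℝ) • fat u (8 * a)⁻¹ K) (cube N)
      = covN (fat u (8 * a)⁻¹ K) ((1 / 2 : ℝ) • cube N) := by
    rw [← covN_smul (2 : ℝ) (by norm_num) (fat u (8 * a)⁻¹ K), smul_smul]
    norm_num
  rw [e2] at h
  have s1 := covN_le_fat u (8 * a)⁻¹ K (cov_ex hF (symBody_smul _ (by norm_num) _ hQ))
  have c2 := cov_ex hpL (symBody_smul (8 * a)⁻¹ hε _ hpK)
  have s2 := covN_polar_ge u (8 * a)⁻¹ (8 * a)⁻¹ hε hε K hK.2.2.2 c2
  have p0 : 0 < covN K (slabs u) := covN_pos (nonempty_of_symBody hK) (cov_ex hK hL)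
  have p1 : 0 < covN (polar (cube N)) ((2 * (8 * a)⁻¹ + 2 * (8 * a)⁻¹) • polar (fat u (8 * a)⁻¹ K)) :=
    covN_pos (nonempty_of_symBody hpQ) (cov_ex hpQ (symBody_smul _ (by positivity) _ hpF))
  have l1 := log_cast_le p0 s1
  have l2 := log_cast_le p1 s2
  exact l1.trans (h.trans (mul_le_mul_of_nonneg_left l2 hb.le))

/-- Duality for all pairs `(M, cube)` implies duality for all pairs `(K, polytope)`. -/
theorem dual_of_cubeDual (a b : ℝ) (ha : 1 ≤ a) (hb : 0 < b) (H : CubeDual a b)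
    (K : Set (ι → ℝ)) (u : Fin N → ι → ℝ) (hK : SymBody K) (hL : SymBody (slabs u)) :
    Dual (8 * a) b K (slabs u) :=
  ⟨red_left a b ha hb H K u hK hL, red_right a b ha hb H K u hK hL⟩

end P126
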