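import Vale.Agent.Lib.P126.RBody
import Vale.Agent.Lib.P126.RAdj

/-! # P126 unit W6: the polar of a symmetric polyhedron (Hahn-Banach) -/

namespace P126
open P248
open scoped Pointwise
variable {ι : Type*} [Fintype ι] {N : ℕ}

/-- W6.  `M = Ts u '' polar (cube N)` is compact (`symBody_polar`, `symBody_cube`, `Ts u` continuous), convex, contains
`0` and `± u i = Ts u (± Pi.single i 1)`.  If `z ∉ M`, `geometric_hahn_banach_compact_point` (or `_closed_point`) gives
a continuous linear `f` and `c` with `f m < c < f z` on `M`; `c > 0`.  With `x = fun j => f (Pi.single j 1) / c` one has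
`x ⬝ᵥ v = f v / c` (`pi_eq_sum_univ`/`LinearMap.pi_apply_eq_sum_univ`), so `|x ⬝ᵥ u i| < 1`, `x ∈ slabs u`, `x ⬝ᵥ z > 1`,
so `z ∉ polar (slabs u)`. -/
theorem polar_slabs_subset (u : Fin N → ι → ℝ) : polar (slabs u) ⊆ Ts u '' polar (cube N) := by
  classical
  intro z hz
  by_contra hzM
  let L : (Fin N → ℝ) →ₗ[ℝ] (ι → ℝ) :=
    { toFun := Ts u
      map_add' := by
        intro a b
        simp [Ts, add_smul, Finset.sum_add_distrib]
      map_smul' := by
        intro t a
        simp [Ts, mul_smul, Finset.smul_sum] }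
  have hL : ∀ y, L y = Ts u y := fun _ => rfl
  have hLc : Continuous (Ts u) := L.continuous_of_finiteDimensional
  have hB := symBody_polar (cube N) (symBody_cube N)
  have hMc : IsCompact (Ts u '' polar (cube N)) := hB.1.image hLc
  have hMconv : Convex ℝ (Ts u '' polar (cube N)) := hB.2.1.linear_image L
  obtain ⟨f, c, hfM, hcz⟩ := geometric_hahn_banach_closed_point hMconv hMc.isClosed hzM
  have h0M : (0 : ι → ℝ) ∈ Ts u '' polar (cube N) := by
    refine ⟨0, ?_, ?_⟩
    · intro q _
      simp
    · simp [Ts]
  have hc : 0 < c := by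
    have := hfM 0 h0M
    simpa using this
  have hsingle : ∀ (i : Fin N) (a : ℝ), Ts u (Pi.single i a) = a • u i := by
    intro i a
    unfold Ts
    rw [Finset.sum_eq_single i]
    · simp
    · intro k _ hk
      simp [Pi.single_eq_of_ne hk]
    · intro h; exact absurd (Finset.mem_univ i) h
  have hp : ∀ i : Fin N, u i ∈ Ts u '' polar (cube N) := by
    intro i
    refine ⟨Pi.single i 1, ?_, by rw [hsingle, one_smul]⟩
    intro q hq
    rw [dotProduct_single, mul_one]
    exact le_trans (le_abs_self _) (hq i)
  have hn : ∀ i : Fin N, -u i ∈ Ts u '' polar (cube N) := by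
    intro i
    refine ⟨Pi.single i (-1), ?_, by rw [hsingle, neg_one_smul]⟩
    intro q hq
    rw [dotProduct_single, mul_neg, mul_one]
    exact le_trans (neg_le_abs _) (hq i)
  set x : ι → ℝ := fun j => f (Pi.single j 1) / c with hx
  have hxv : ∀ v : ι → ℝ, x ⬝ᵥ v = f v / c := by
    intro v
    have hv : f v = ∑ j, v j * f (Pi.single j 1) := by
      conv_lhs => rw [pi_eq_sum_univ' v]
      rw [map_sum]
      refine Finset.sum_congr rfl (fun j _ => ?_)
      rw [map_smul, smul_eq_mul]
    rw [hv, Finset.sum_div]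
    unfold dotProduct
    refine Finset.sum_congr rfl (fun j _ => ?_)
    simp only [hx]
    ring
  have hxs : x ∈ slabs u := by
    intro i
    rw [hxv, abs_le]
    have h1 := hfM _ (hp i)
    have h2 := hfM _ (hn i)
    rw [map_neg] at h2
    constructor
    · rw [le_div_iff₀ hc]; linarith
    · rw [div_le_iff₀ hc]; linarith
  have := hz x hxs
  rw [hxv, div_le_iff₀ hc] at this
  linarith

end P126
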